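import Vale.Agent.P352X.CG.FS
import Vale.Agent.P352Z.P352X.TPD.Defs

open Vale.Agent.P352G

/-!
# P352X, block CG: dilates of fields in graded theories (fork of block FSS)
-/

set_option linter.all false

open Filter Topology
open scoped ComplexConjugate

namespace Vale.Agent.P352X.Fss.G

open Vale.Agent.P352 Vale.Agent.P352.GF Vale.Agent.P352.H15 Vale.Agent.P352.H755
open Vale.Agent.P352.H496

noncomputable section

variable {D : Type*} [NormedAddCommGroup D] [InnerProductSpace ℂ D] [GrD D] {Q : Theory D}
  {T : Ix → Ix → Fld D} {B : Fld D} {f g : Fn} {s : ℝ}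

theorem m1_repZ {A : (V → V) → D → D} (R : RepZ Q A) : M1 Q :=
  fun s L a s' L' a' v hs hs' hL hL' h => R.mul s L a s' L' a' v hs hs' hL hL' (h.imp_right .inl)

section
variable (R : M1 Q)
include R

end

variable {F : Finset ℂ} {C : ℂ → Fld D}

section
variable (R : M1 Q) (hT : Stress0 Q T) (hs : 0 < s)
include R hT

end

end

end Vale.Agent.P352X.Fss.G
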